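import Mathlib

namespace Vale.Agent.P047

open Finset

/-- The sign attached to a bit: `true` is `+1`, `false` is `-1`. -/
def sgn (b : Bool) : ℝ := if b then 1 else -1

/-- The character `x ↦ ∏_{i ∈ S} x_i` on the cube. -/
def chi {ι : Type*} (S : Finset ι) (x : ι → Bool) : ℝ := ∏ i ∈ S, sgn (x i)

/-- The Fourier coefficient `E[f(X) ∏_{i ∈ S} X_i]`. -/
noncomputable def fourier {ι : Type*} [Fintype ι] [DecidableEq ι] (f : (ι → Bool) → ℝ) (S : Finset ι) : ℝ :=
  (∑ x : ι → Bool, f x * chi S x) / 2 ^ Fintype.card ι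

/-- `f` takes values in `{-1, 1}`. -/
def IsBoolean {ι : Type*} (f : (ι → Bool) → ℝ) : Prop := ∀ x, f x = 1 ∨ f x = -1

/-- The Fourier degree `max {|S| : fourier f S ≠ 0}` (zero if there is no such `S`). -/
noncomputable def degree {ι : Type*} [Fintype ι] [DecidableEq ι] (f : (ι → Bool) → ℝ) : ℕ :=
  (univ.filter fun S : Finset ι => fourier f S ≠ 0).sup Finset.card

/-- The sum of the linear Fourier coefficients. -/
noncomputable def linSum {ι : Type*} [Fintype ι] [DecidableEq ι] (f : (ι → Bool) → ℝ) : ℝ :=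
  ∑ i, fourier f {i}

/-- Indicator of the subcube `{x : x_i = +1 for i ∈ P, x_i = -1 for i ∈ N}`. -/
def subcube {ι : Type*} (P N : Finset ι) (x : ι → Bool) : ℝ :=
  if (∀ i ∈ P, x i = true) ∧ (∀ i ∈ N, x i = false) then 1 else 0

lemma sgn_true : sgn true = 1 := by simp [sgn]

lemma sgn_false : sgn false = -1 := by simp [sgn]

lemma subcube_nonneg {ι : Type*} (P N : Finset ι) (x : ι → Bool) : 0 ≤ subcube P N x := by
  unfold subcube; split_ifs <;> norm_num

variable {ι : Type*} [Fintype ι] [DecidableEq ι]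

lemma sum_cube_prod (h : ι → Bool → ℝ) :
    ∑ x : ι → Bool, ∏ i, h i (x i) = ∏ i, (h i true + h i false) := by
  rw [← Fintype.prod_sum]
  simp

lemma subcube_eq_prod (P N : Finset ι) (x : ι → Bool) :
    subcube P N x = ∏ i, ((if i ∈ P then (if x i then (1:ℝ) else 0) else 1) *
      (if i ∈ N then (if x i then (0:ℝ) else 1) else 1)) := by
  unfold subcube
  split_ifs with h
  · symm
    apply Finset.prod_eq_one
    intro i _
    by_cases hP : i ∈ P
    · by_cases hN : i ∈ N
      · have h1 := h.1 i hP
        have h2 := h.2 i hN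
        simp [h1] at h2
      · simp [hP, hN, h.1 i hP]
    · by_cases hN : i ∈ N
      · simp [hP, hN, h.2 i hN]
      · simp [hP, hN]
  · symm
    rw [not_and_or] at h
    rcases h with h | h
    · push Not at h
      obtain ⟨i, hi, hx⟩ := h
      apply Finset.prod_eq_zero (mem_univ i)
      simp [hi, hx]
    · push Not at h
      obtain ⟨i, hi, hx⟩ := h
      apply Finset.prod_eq_zero (mem_univ i)
      have : x i = true := by simpa using hx
      simp [hi, this]

lemma sum_subcube_mul_prod (P N : Finset ι) (hPN : Disjoint P N) (u : ι → Bool → ℝ) :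
    ∑ x : ι → Bool, subcube P N x * ∏ i, u i (x i) =
      (∏ i ∈ P, u i true) * (∏ i ∈ N, u i false) * ∏ i ∈ (P ∪ N)ᶜ, (u i true + u i false) := by
  have h1 : ∀ x : ι → Bool, subcube P N x * ∏ i, u i (x i) =
      ∏ i, (((if i ∈ P then (if x i then (1:ℝ) else 0) else 1) *
      (if i ∈ N then (if x i then (0:ℝ) else 1) else 1)) * u i (x i)) := by
    intro x
    rw [subcube_eq_prod, ← Finset.prod_mul_distrib]
  simp_rw [h1]
  rw [sum_cube_prod (fun i b => ((if i ∈ P then (if b then (1:ℝ) else 0) else 1) *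
      (if i ∈ N then (if b then (0:ℝ) else 1) else 1)) * u i b)]
  have h2 : ∀ i, (((if i ∈ P then (if true then (1:ℝ) else 0) else 1) *
      (if i ∈ N then (if true then (0:ℝ) else 1) else 1)) * u i true +
      ((if i ∈ P then (if false then (1:ℝ) else 0) else 1) *
      (if i ∈ N then (if false then (0:ℝ) else 1) else 1)) * u i false) =
      if i ∈ P then u i true else if i ∈ N then u i false else u i true + u i false := by
    intro i
    by_cases hP : i ∈ P
    · have hN : i ∉ N := Finset.disjoint_left.mp hPN hP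
      simp [hP, hN]
    · by_cases hN : i ∈ N
      · simp [hP, hN]
      · simp [hP, hN]
  refine (Finset.prod_congr rfl (fun i _ => h2 i)).trans ?_
  rw [Finset.prod_ite, Finset.prod_ite]
  have e1 : (univ.filter fun i => i ∈ P) = P := by ext i; simp
  have e2 : ((univ.filter fun i => ¬ i ∈ P).filter fun i => i ∈ N) = N := by
    ext i
    simp only [mem_filter, mem_univ, true_and]
    constructor
    · exact fun h => h.2
    · exact fun h => ⟨fun hP => Finset.disjoint_left.mp hPN hP h, h⟩
  have e3 : ((univ.filter fun i => ¬ i ∈ P).filter fun i => ¬ i ∈ N) = (P ∪ N)ᶜ := by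
    ext i
    simp
  rw [e1, e2, e3, mul_assoc]

lemma chi_eq_prod_univ (S : Finset ι) (x : ι → Bool) :
    chi S x = ∏ i, (if i ∈ S then sgn (x i) else 1) := by
  unfold chi
  rw [Finset.prod_ite_mem, Finset.univ_inter]

lemma sum_subcube_chi_eq_zero (P N S : Finset ι) (hPN : Disjoint P N) (hS : ¬ S ⊆ P ∪ N) :
    ∑ x : ι → Bool, subcube P N x * chi S x = 0 := by
  simp_rw [chi_eq_prod_univ]
  rw [sum_subcube_mul_prod P N hPN (fun i b => if i ∈ S then sgn b else 1)]
  obtain ⟨i, hiS, hi⟩ := Finset.not_subset.mp hS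
  have : ∏ i ∈ (P ∪ N)ᶜ, ((if i ∈ S then sgn true else 1) + (if i ∈ S then sgn false else 1)) = 0 := by
    apply Finset.prod_eq_zero (Finset.mem_compl.mpr hi)
    simp [hiS, sgn_true, sgn_false]
  rw [this, mul_zero]

lemma sum_subcube_sgn (P N : Finset ι) (hPN : Disjoint P N) (j : ι) :
    ∑ x : ι → Bool, subcube P N x * sgn (x j) =
      ((if j ∈ P then 1 else 0) - (if j ∈ N then 1 else 0)) * 2 ^ ((P ∪ N)ᶜ).card := by
  have h0 : ∀ x : ι → Bool, sgn (x j) = ∏ i, (if i = j then sgn (x i) else 1) := by
    intro x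
    rw [Finset.prod_ite_eq' univ j (fun i => sgn (x i))]
    simp
  simp_rw [h0]
  rw [sum_subcube_mul_prod P N hPN (fun i b => if i = j then sgn b else 1)]
  have hP : ∏ i ∈ P, (if i = j then sgn true else 1) = 1 := by
    apply Finset.prod_eq_one
    intro i _
    split_ifs <;> simp [sgn_true]
  rw [hP, one_mul]
  by_cases hjP : j ∈ P
  · have hjN : j ∉ N := Finset.disjoint_left.mp hPN hjP
    have hN : ∏ i ∈ N, (if i = j then sgn false else 1) = 1 := by
      apply Finset.prod_eq_one
      intro i hi
      have : i ≠ j := fun h => hjN (h ▸ hi)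
      simp [this]
    have hC : ∏ i ∈ (P ∪ N)ᶜ, ((if i = j then sgn true else 1) + (if i = j then sgn false else 1))
        = 2 ^ ((P ∪ N)ᶜ).card := by
      rw [← Finset.prod_const]
      apply Finset.prod_congr rfl
      intro i hi
      have : i ≠ j := by
        intro h
        rw [h] at hi
        exact (Finset.mem_compl.mp hi) (Finset.mem_union_left _ hjP)
      simp [this]
      norm_num
    rw [hN, hC]
    simp [hjP, hjN]
  · by_cases hjN : j ∈ N
    · have hN : ∏ i ∈ N, (if i = j then sgn false else 1) = -1 := by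
        rw [Finset.prod_ite_eq' N j (fun _ => sgn false)]
        simp [hjN, sgn_false]
      have hC : ∏ i ∈ (P ∪ N)ᶜ, ((if i = j then sgn true else 1) + (if i = j then sgn false else 1))
          = 2 ^ ((P ∪ N)ᶜ).card := by
        rw [← Finset.prod_const]
        apply Finset.prod_congr rfl
        intro i hi
        have : i ≠ j := by
          intro h
          rw [h] at hi
          exact (Finset.mem_compl.mp hi) (Finset.mem_union_right _ hjN)
        simp [this]
        norm_num
      rw [hN, hC]
      simp [hjP, hjN]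
    · have hC : ∏ i ∈ (P ∪ N)ᶜ, ((if i = j then sgn true else 1) + (if i = j then sgn false else 1))
          = 0 := by
        apply Finset.prod_eq_zero (i := j)
        · simp [hjP, hjN]
        · simp [sgn_true, sgn_false]
      rw [hC]
      simp [hjP, hjN]

lemma sum_subcube_tilt (P N : Finset ι) (hPN : Disjoint P N) (t : ℝ) :
    ∑ x : ι → Bool, subcube P N x * ∏ i, (1 + t * sgn (x i)) =
      (1 + t) ^ P.card * (1 - t) ^ N.card * 2 ^ ((P ∪ N)ᶜ).card := by
  rw [sum_subcube_mul_prod P N hPN (fun _ b => 1 + t * sgn b)]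
  simp only [sgn_true, sgn_false, Finset.prod_const]
  congr 1
  · congr 1 <;> ring_nf
  · congr 1; ring

lemma sum_tilt (t : ℝ) :
    ∑ x : ι → Bool, ∏ i, (1 + t * sgn (x i)) = 2 ^ Fintype.card ι := by
  rw [sum_cube_prod (fun _ b => 1 + t * sgn b)]
  simp only [sgn_true, sgn_false]
  rw [← Finset.card_univ, ← Finset.prod_const]
  apply Finset.prod_congr rfl
  intro i _
  ring

lemma sum_sgn (j : ι) : ∑ x : ι → Bool, sgn (x j) = 0 := by
  have h := sum_subcube_sgn (∅ : Finset ι) ∅ (by simp) j
  simpa [subcube] using h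

lemma sum_chi_eq_zero (S : Finset ι) (hS : S.Nonempty) : ∑ x : ι → Bool, chi S x = 0 := by
  have h := sum_subcube_chi_eq_zero (∅ : Finset ι) ∅ S (by simp) (by
    intro h
    obtain ⟨i, hi⟩ := hS
    simpa using h hi)
  simpa [subcube] using h

lemma degree_le_of_forall (f : (ι → Bool) → ℝ) (d : ℕ)
    (h : ∀ S : Finset ι, d < S.card → fourier f S = 0) : degree f ≤ d := by
  unfold degree
  apply Finset.sup_le
  intro S hS
  by_contra hlt
  exact (Finset.mem_filter.mp hS).2 (h S (not_le.mp hlt))

lemma fourier_eq_zero_of_degree_lt (f : (ι → Bool) → ℝ) (S : Finset ι) (h : degree f < S.card) :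
    fourier f S = 0 := by
  by_contra hne
  have : S.card ≤ degree f := by
    unfold degree
    exact Finset.le_sup (f := Finset.card) (Finset.mem_filter.mpr ⟨mem_univ S, hne⟩)
  omega

end Vale.Agent.P047
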