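import Mathlib

namespace Vale.Agent.P047

open Real

lemma exp_two_mul_le {t : ℝ} (h0 : 0 ≤ t) (h1 : t < 1) : exp (2 * t) ≤ (1 + t) / (1 - t) := by
  have habs : |t| < 1 := by rw [abs_of_nonneg h0]; exact h1
  have hs := hasSum_log_sub_log_of_abs_lt_one habs
  have h2 : (2 : ℝ) * (1 / (2 * ((0 : ℕ) : ℝ) + 1)) * t ^ (2 * 0 + 1) ≤ log (1 + t) - log (1 - t) := by
    apply le_hasSum hs 0
    intro j _
    positivity
  have h3 : 2 * t ≤ log (1 + t) - log (1 - t) := by
    simpa using h2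
  calc exp (2 * t) ≤ exp (log (1 + t) - log (1 - t)) := exp_le_exp.mpr h3
    _ = (1 + t) / (1 - t) := by
      rw [exp_sub, exp_log (by linarith), exp_log (by linarith)]

lemma e_mul_le_exp (u : ℝ) : exp 1 * u ≤ exp u := by
  have h := add_one_le_exp (u - 1)
  have h2 : exp u = exp 1 * exp (u - 1) := by rw [← exp_add]; ring_nf
  rw [h2]
  have : u ≤ exp (u - 1) := by linarith
  exact mul_le_mul_of_nonneg_left this (exp_pos 1).le

lemma pow_ge_inv_e (d : ℕ) : 1 ≤ exp 1 * ((d : ℝ) / (d + 1)) ^ d := by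
  rcases Nat.eq_zero_or_pos d with rfl | hd
  · simp
  have hd' : (0 : ℝ) < d := by exact_mod_cast hd
  have h1 : (1 : ℝ) / d + 1 ≤ exp (1 / d) := add_one_le_exp _
  have h2 : ((1 : ℝ) / d + 1) ^ d ≤ exp 1 := by
    calc ((1 : ℝ) / d + 1) ^ d ≤ (exp (1 / d)) ^ d := by
          apply pow_le_pow_left₀ (by positivity) h1
      _ = exp 1 := by
          rw [← exp_nat_mul]
          congr 1
          field_simp
  have h3 : ((1 : ℝ) / d + 1) ^ d * ((d : ℝ) / (d + 1)) ^ d = 1 := by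
    rw [← mul_pow]
    have : ((1 : ℝ) / d + 1) * ((d : ℝ) / (d + 1)) = 1 := by field_simp; ring
    rw [this, one_pow]
  calc (1 : ℝ) = ((1 : ℝ) / d + 1) ^ d * ((d : ℝ) / (d + 1)) ^ d := h3.symm
    _ ≤ exp 1 * ((d : ℝ) / (d + 1)) ^ d := by
      apply mul_le_mul_of_nonneg_right h2 (by positivity)

lemma key_ineq (d a b : ℕ) (hab : a + b ≤ d) :
    sqrt (exp 1) * (1 / sqrt ((d : ℝ) + 1)) * ((a : ℝ) - b) ≤
      (1 + 1 / sqrt ((d : ℝ) + 1)) ^ a * (1 - 1 / sqrt ((d : ℝ) + 1)) ^ b := by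
  set t : ℝ := 1 / sqrt ((d : ℝ) + 1) with ht
  have hd1 : (0 : ℝ) < (d : ℝ) + 1 := by positivity
  have hsq : 1 ≤ sqrt ((d : ℝ) + 1) := by
    have : (0 : ℝ) ≤ d := Nat.cast_nonneg d
    exact (Real.le_sqrt (by norm_num) hd1.le).mpr (by linarith)
  have ht0 : 0 < t := by rw [ht]; positivity
  have ht1 : t ≤ 1 := by
    rw [ht, div_le_one (by linarith)]
    exact hsq
  have htsq : t ^ 2 = 1 / ((d : ℝ) + 1) := by
    rw [ht, div_pow, one_pow, sq_sqrt hd1.le]
  have hR0 : 0 ≤ (1 + t) ^ a * (1 - t) ^ b := by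
    apply mul_nonneg
    · apply pow_nonneg; linarith
    · apply pow_nonneg; linarith
  rcases le_or_gt a b with hle | hlt
  · have : (a : ℝ) - b ≤ 0 := by
      have : (a : ℝ) ≤ b := by exact_mod_cast hle
      linarith
    have h2 : sqrt (exp 1) * t * ((a : ℝ) - b) ≤ 0 := by
      apply mul_nonpos_of_nonneg_of_nonpos _ this
      positivity
    linarith
  · obtain ⟨D, rfl⟩ : ∃ D, a = b + D := ⟨a - b, by omega⟩
    have hDpos : 0 < D := by omega
    have hdpos : 0 < d := by omega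
    have ht1' : t < 1 := by
      rw [ht, div_lt_one (by linarith)]
      have : (0 : ℝ) < d := by exact_mod_cast hdpos
      exact (Real.lt_sqrt (by norm_num)).mpr (by linarith)
    have hcast : ((b + D : ℕ) : ℝ) - b = D := by push_cast; ring
    rw [hcast]
    have hL0 : 0 ≤ sqrt (exp 1) * t * (D : ℝ) := by positivity
    rw [← pow_le_pow_iff_left₀ hL0 hR0 (two_ne_zero)]
    have hq : 1 - t ^ 2 = (d : ℝ) / (d + 1) := by
      rw [htsq]; field_simp; ring
    have hq0 : 0 ≤ 1 - t ^ 2 := by rw [hq]; positivity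
    have hq1 : 1 - t ^ 2 ≤ 1 := by nlinarith [sq_nonneg t]
    have h1mt : 0 < 1 - t := by linarith
    have hRsq : ((1 + t) ^ (b + D) * (1 - t) ^ b) ^ 2 =
        (1 - t ^ 2) ^ (2 * b + D) * ((1 + t) / (1 - t)) ^ D := by
      have e1 : (1 - t ^ 2) = (1 + t) * (1 - t) := by ring
      rw [e1, div_pow, mul_pow, mul_pow]
      have h1 : (1 - t) ^ (2 * b + D) = (1 - t) ^ (2 * b) * (1 - t) ^ D := pow_add _ _ _
      rw [h1]
      have hne : (1 - t) ^ D ≠ 0 := pow_ne_zero _ h1mt.ne'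
      field_simp
      ring
    rw [hRsq]
    have hA : ((d : ℝ) / (d + 1)) ^ d ≤ (1 - t ^ 2) ^ (2 * b + D) := by
      rw [← hq]
      apply pow_le_pow_of_le_one hq0 hq1
      omega
    have hB : (exp 1 * (t * D)) ^ 2 ≤ ((1 + t) / (1 - t)) ^ D := by
      calc (exp 1 * (t * D)) ^ 2 ≤ (exp (t * D)) ^ 2 := by
            apply pow_le_pow_left₀ (by positivity) (e_mul_le_exp _)
        _ = (exp (2 * t)) ^ D := by
            rw [← exp_nat_mul, ← exp_nat_mul]
            congr 1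
            push_cast
            ring
        _ ≤ ((1 + t) / (1 - t)) ^ D := by
            apply pow_le_pow_left₀ (exp_pos _).le (exp_two_mul_le ht0.le ht1')
    have hC := pow_ge_inv_e d
    have hsqe : (sqrt (exp 1)) ^ 2 = exp 1 := sq_sqrt (exp_pos 1).le
    calc (sqrt (exp 1) * t * (D : ℝ)) ^ 2 = exp 1 * (t * D) ^ 2 := by
          rw [mul_assoc, mul_pow, hsqe]
      _ ≤ (exp 1 * ((d : ℝ) / (d + 1)) ^ d) * (exp 1 * (t * D) ^ 2) := by
          apply le_mul_of_one_le_left (by positivity) hC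
      _ = ((d : ℝ) / (d + 1)) ^ d * (exp 1 * (t * D)) ^ 2 := by ring
      _ ≤ (1 - t ^ 2) ^ (2 * b + D) * ((1 + t) / (1 - t)) ^ D := by
          apply mul_le_mul hA hB (by positivity) (pow_nonneg hq0 _)

end Vale.Agent.P047
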