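import Vale.Agent.P047.Basic
import Vale.Agent.P047.Key

namespace Vale.Agent.P047

open Finset

variable {ι : Type*} [Fintype ι] [DecidableEq ι]

omit [Fintype ι] [DecidableEq ι] in
lemma f_eq_of_rep (f : (ι → Bool) → ℝ)
    (T : Finset (Finset ι × Finset ι)) (c : Finset ι × Finset ι → ℝ)
    (hrep : ∀ x, (1 + f x) / 2 = ∑ C ∈ T, c C * subcube C.1 C.2 x) (x : ι → Bool) :
    f x = 2 * (∑ C ∈ T, c C * subcube C.1 C.2 x) - 1 := by
  rw [← hrep x]; ring

lemma sum_f_mul (f : (ι → Bool) → ℝ)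
    (T : Finset (Finset ι × Finset ι)) (c : Finset ι × Finset ι → ℝ)
    (hrep : ∀ x, (1 + f x) / 2 = ∑ C ∈ T, c C * subcube C.1 C.2 x) (g : (ι → Bool) → ℝ) :
    ∑ x, f x * g x = 2 * (∑ C ∈ T, c C * ∑ x, subcube C.1 C.2 x * g x) - ∑ x, g x := by
  have h1 : ∀ x, f x * g x = 2 * (∑ C ∈ T, c C * (subcube C.1 C.2 x * g x)) - g x := by
    intro x
    rw [f_eq_of_rep f T c hrep x, sub_mul, one_mul, mul_assoc, Finset.sum_mul]
    congr 2
    apply Finset.sum_congr rfl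
    intro C _
    ring
  simp_rw [h1]
  rw [Finset.sum_sub_distrib, ← Finset.mul_sum, Finset.sum_comm]
  congr 2
  apply Finset.sum_congr rfl
  intro C _
  rw [Finset.mul_sum]

theorem junta_degree (d : ℕ) (f : (ι → Bool) → ℝ)
    (T : Finset (Finset ι × Finset ι)) (c : Finset ι × Finset ι → ℝ)
    (hdisj : ∀ C ∈ T, Disjoint C.1 C.2)
    (hw : ∀ C ∈ T, C.1.card + C.2.card ≤ d)
    (hrep : ∀ x, (1 + f x) / 2 = ∑ C ∈ T, c C * subcube C.1 C.2 x) :
    degree f ≤ d := by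
  apply degree_le_of_forall
  intro S hS
  unfold fourier
  rw [sum_f_mul f T c hrep (chi S)]
  have hne : S.Nonempty := by
    rw [← Finset.card_pos]; omega
  rw [sum_chi_eq_zero S hne]
  have : ∑ C ∈ T, c C * ∑ x, subcube C.1 C.2 x * chi S x = 0 := by
    apply Finset.sum_eq_zero
    intro C hC
    rw [sum_subcube_chi_eq_zero C.1 C.2 S (hdisj C hC), mul_zero]
    intro hsub
    have h1 := Finset.card_le_card hsub
    have h2 := Finset.card_union_le C.1 C.2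
    have h3 := hw C hC
    omega
  rw [this]
  simp

theorem junta_signed_eq (f : (ι → Bool) → ℝ)
    (T : Finset (Finset ι × Finset ι)) (c : Finset ι × Finset ι → ℝ)
    (hdisj : ∀ C ∈ T, Disjoint C.1 C.2)
    (hrep : ∀ x, (1 + f x) / 2 = ∑ C ∈ T, c C * subcube C.1 C.2 x) (e : ι → Bool) :
    ∑ j, sgn (e j) * fourier f {j} =
      2 * ∑ C ∈ T, c C * (2 ^ ((C.1 ∪ C.2)ᶜ).card / 2 ^ Fintype.card ι) *
      (∑ j ∈ C.1, sgn (e j) - ∑ j ∈ C.2, sgn (e j)) := by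
  unfold fourier
  have h1 : ∀ j : ι, ∑ x, f x * chi {j} x =
      2 * ∑ C ∈ T, c C * (((if j ∈ C.1 then 1 else 0) - (if j ∈ C.2 then 1 else 0)) *
        2 ^ ((C.1 ∪ C.2)ᶜ).card) := by
    intro j
    rw [sum_f_mul f T c hrep (chi {j})]
    have hchi : ∀ x : ι → Bool, chi {j} x = sgn (x j) := by
      intro x; simp [chi]
    simp_rw [hchi]
    rw [sum_sgn, sub_zero]
    congr 1
    apply Finset.sum_congr rfl
    intro C hC
    rw [sum_subcube_sgn C.1 C.2 (hdisj C hC) j]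
  simp_rw [h1]
  have h2 : ∀ j : ι, sgn (e j) * ((2 * ∑ C ∈ T, c C * (((if j ∈ C.1 then 1 else 0) -
      (if j ∈ C.2 then 1 else 0)) * 2 ^ ((C.1 ∪ C.2)ᶜ).card)) / 2 ^ Fintype.card ι) =
      2 * ∑ C ∈ T, c C * (2 ^ ((C.1 ∪ C.2)ᶜ).card / 2 ^ Fintype.card ι) *
      ((if j ∈ C.1 then sgn (e j) else 0) - (if j ∈ C.2 then sgn (e j) else 0)) := by
    intro j
    rw [mul_div_assoc, Finset.sum_div, mul_left_comm, Finset.mul_sum]
    congr 1
    apply Finset.sum_congr rfl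
    intro C _
    split_ifs <;> ring
  simp_rw [h2]
  rw [← Finset.mul_sum, Finset.sum_comm]
  congr 1
  apply Finset.sum_congr rfl
  intro C _
  rw [← Finset.mul_sum, Finset.sum_sub_distrib]
  simp only [Finset.sum_ite_mem, Finset.univ_inter]

theorem junta_tilt_le (f : (ι → Bool) → ℝ) (hf : IsBoolean f)
    (T : Finset (Finset ι × Finset ι)) (c : Finset ι × Finset ι → ℝ)
    (hdisj : ∀ C ∈ T, Disjoint C.1 C.2)
    (hrep : ∀ x, (1 + f x) / 2 = ∑ C ∈ T, c C * subcube C.1 C.2 x)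
    (e : ι → Bool) (t : ℝ) (ht0 : 0 ≤ t) (ht1 : t ≤ 1) :
    ∑ C ∈ T, c C * (2 ^ ((C.1 ∪ C.2)ᶜ).card / 2 ^ Fintype.card ι) *
      ((∏ i ∈ C.1, (1 + t * sgn (e i))) * ∏ i ∈ C.2, (1 - t * sgn (e i))) ≤ 1 := by
  have hw : ∀ x : ι → Bool, 0 ≤ ∏ i, (1 + t * sgn (e i) * sgn (x i)) := by
    intro x
    apply Finset.prod_nonneg
    intro i _
    unfold sgn
    split_ifs <;> linarith
  have hsum : ∑ x : ι → Bool, ∏ i, (1 + t * sgn (e i) * sgn (x i)) = 2 ^ Fintype.card ι := by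
    rw [sum_cube_prod (fun i b => 1 + t * sgn (e i) * sgn b)]
    simp only [sgn_true, sgn_false]
    rw [← Finset.card_univ, ← Finset.prod_const]
    apply Finset.prod_congr rfl
    intro i _
    ring
  have h1 : ∑ x : ι → Bool, ((1 + f x) / 2) * ∏ i, (1 + t * sgn (e i) * sgn (x i)) ≤
      ∑ x : ι → Bool, ∏ i, (1 + t * sgn (e i) * sgn (x i)) := by
    apply Finset.sum_le_sum
    intro x _
    have : (1 + f x) / 2 ≤ 1 := by
      rcases hf x with h | h <;> rw [h] <;> norm_num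
    exact mul_le_of_le_one_left (hw x) this
  rw [hsum] at h1
  have h2 : ∑ x : ι → Bool, ((1 + f x) / 2) * ∏ i, (1 + t * sgn (e i) * sgn (x i)) =
      ∑ C ∈ T, c C * ((∏ i ∈ C.1, (1 + t * sgn (e i))) * (∏ i ∈ C.2, (1 - t * sgn (e i))) *
        2 ^ ((C.1 ∪ C.2)ᶜ).card) := by
    simp_rw [hrep, Finset.sum_mul]
    rw [Finset.sum_comm]
    apply Finset.sum_congr rfl
    intro C hC
    have h3 := sum_subcube_mul_prod C.1 C.2 (hdisj C hC) (fun i b => 1 + t * sgn (e i) * sgn b)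
    simp only [sgn_true, sgn_false] at h3
    have h4 : ∏ i ∈ (C.1 ∪ C.2)ᶜ, ((1 + t * sgn (e i) * 1) + (1 + t * sgn (e i) * -1)) =
        2 ^ ((C.1 ∪ C.2)ᶜ).card := by
      rw [← Finset.prod_const]
      apply Finset.prod_congr rfl
      intro i _
      ring
    rw [h4] at h3
    have h5 : ∏ i ∈ C.1, (1 + t * sgn (e i) * 1) = ∏ i ∈ C.1, (1 + t * sgn (e i)) := by
      apply Finset.prod_congr rfl; intro i _; ring
    have h6 : ∏ i ∈ C.2, (1 + t * sgn (e i) * -1) = ∏ i ∈ C.2, (1 - t * sgn (e i)) := by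
      apply Finset.prod_congr rfl; intro i _; ring
    rw [h5, h6] at h3
    rw [← h3, Finset.mul_sum]
    apply Finset.sum_congr rfl
    intro x _
    ring
  rw [h2] at h1
  have hpos : (0 : ℝ) < 2 ^ Fintype.card ι := by positivity
  have h3 : (∑ C ∈ T, c C * ((∏ i ∈ C.1, (1 + t * sgn (e i))) *
      (∏ i ∈ C.2, (1 - t * sgn (e i))) * 2 ^ ((C.1 ∪ C.2)ᶜ).card)) / 2 ^ Fintype.card ι ≤ 1 := by
    rw [div_le_one hpos]; exact h1
  calc _ = (∑ C ∈ T, c C * ((∏ i ∈ C.1, (1 + t * sgn (e i))) *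
      (∏ i ∈ C.2, (1 - t * sgn (e i))) * 2 ^ ((C.1 ∪ C.2)ᶜ).card)) / 2 ^ Fintype.card ι := by
        rw [Finset.sum_div]
        apply Finset.sum_congr rfl
        intro C _
        ring
    _ ≤ 1 := h3

omit [Fintype ι] [DecidableEq ι] in
lemma prod_tilt_eq (P : Finset ι) (e : ι → Bool) (u v : ℝ) :
    ∏ i ∈ P, (if e i then u else v) =
      u ^ (P.filter fun i => e i = true).card * v ^ (P.filter fun i => ¬ e i = true).card := by
  rw [Finset.prod_ite, Finset.prod_const, Finset.prod_const]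

omit [Fintype ι] [DecidableEq ι] in
lemma sum_sgn_eq (P : Finset ι) (e : ι → Bool) :
    ∑ i ∈ P, sgn (e i) =
      ((P.filter fun i => e i = true).card : ℝ) - (P.filter fun i => ¬ e i = true).card := by
  unfold sgn
  rw [Finset.sum_ite, Finset.sum_const, Finset.sum_const]
  simp
  ring

omit [Fintype ι] [DecidableEq ι] in
lemma key_signed (d : ℕ) (P N : Finset ι) (hw : P.card + N.card ≤ d) (e : ι → Bool) :
    Real.sqrt (Real.exp 1) * (1 / Real.sqrt ((d : ℝ) + 1)) *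
      (∑ j ∈ P, sgn (e j) - ∑ j ∈ N, sgn (e j)) ≤
      (∏ i ∈ P, (1 + 1 / Real.sqrt ((d : ℝ) + 1) * sgn (e i))) *
        ∏ i ∈ N, (1 - 1 / Real.sqrt ((d : ℝ) + 1) * sgn (e i)) := by
  set t : ℝ := 1 / Real.sqrt ((d : ℝ) + 1) with ht
  have h1 : ∏ i ∈ P, (1 + t * sgn (e i)) = ∏ i ∈ P, (if e i then (1 + t) else (1 - t)) := by
    apply Finset.prod_congr rfl
    intro i _
    unfold sgn
    split_ifs <;> ring
  have h2 : ∏ i ∈ N, (1 - t * sgn (e i)) = ∏ i ∈ N, (if e i then (1 - t) else (1 + t)) := by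
    apply Finset.prod_congr rfl
    intro i _
    unfold sgn
    split_ifs <;> ring
  rw [h1, h2, prod_tilt_eq, prod_tilt_eq, sum_sgn_eq, sum_sgn_eq]
  set p1 := (P.filter fun i => e i = true).card
  set p0 := (P.filter fun i => ¬ e i = true).card
  set n1 := (N.filter fun i => e i = true).card
  set n0 := (N.filter fun i => ¬ e i = true).card
  have hP : p1 + p0 = P.card := Finset.card_filter_add_card_filter_not _
  have hN : n1 + n0 = N.card := Finset.card_filter_add_card_filter_not _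
  have hk := key_ineq d (p1 + n0) (p0 + n1) (by omega)
  rw [← ht] at hk
  calc Real.sqrt (Real.exp 1) * t * ((p1 : ℝ) - p0 - ((n1 : ℝ) - n0))
      = Real.sqrt (Real.exp 1) * t * (((p1 + n0 : ℕ) : ℝ) - ((p0 + n1 : ℕ) : ℝ)) := by
        push_cast; ring
    _ ≤ (1 + t) ^ (p1 + n0) * (1 - t) ^ (p0 + n1) := hk
    _ = (1 + t) ^ p1 * (1 - t) ^ p0 * ((1 - t) ^ n1 * (1 + t) ^ n0) := by
        rw [pow_add, pow_add]; ring

theorem junta_signed_le (d : ℕ) (f : (ι → Bool) → ℝ) (hf : IsBoolean f)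
    (T : Finset (Finset ι × Finset ι)) (c : Finset ι × Finset ι → ℝ)
    (hc : ∀ C ∈ T, 0 ≤ c C)
    (hdisj : ∀ C ∈ T, Disjoint C.1 C.2)
    (hw : ∀ C ∈ T, C.1.card + C.2.card ≤ d)
    (hrep : ∀ x, (1 + f x) / 2 = ∑ C ∈ T, c C * subcube C.1 C.2 x) (e : ι → Bool) :
    ∑ j, sgn (e j) * fourier f {j} ≤ 2 * Real.sqrt (((d : ℝ) + 1) / Real.exp 1) := by
  rw [junta_signed_eq f T c hdisj hrep e]
  have hd1 : (0 : ℝ) < (d : ℝ) + 1 := by positivity
  set t : ℝ := 1 / Real.sqrt ((d : ℝ) + 1) with ht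
  have hsq : 1 ≤ Real.sqrt ((d : ℝ) + 1) := by
    have : (0 : ℝ) ≤ d := Nat.cast_nonneg d
    exact (Real.le_sqrt (by norm_num) hd1.le).mpr (by linarith)
  have ht0 : 0 < t := by rw [ht]; positivity
  have ht1 : t ≤ 1 := by
    rw [ht, div_le_one (by linarith)]
    exact hsq
  have hA := junta_tilt_le f hf T c hdisj hrep e t ht0.le ht1
  have hB : Real.sqrt (Real.exp 1) * t * (∑ C ∈ T, c C *
      (2 ^ ((C.1 ∪ C.2)ᶜ).card / 2 ^ Fintype.card ι) *
      (∑ j ∈ C.1, sgn (e j) - ∑ j ∈ C.2, sgn (e j))) ≤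
      ∑ C ∈ T, c C * (2 ^ ((C.1 ∪ C.2)ᶜ).card / 2 ^ Fintype.card ι) *
      ((∏ i ∈ C.1, (1 + t * sgn (e i))) * ∏ i ∈ C.2, (1 - t * sgn (e i))) := by
    rw [Finset.mul_sum]
    apply Finset.sum_le_sum
    intro C hC
    have hk := key_signed d C.1 C.2 (hw C hC) e
    rw [← ht] at hk
    have hnn : 0 ≤ c C * (2 ^ ((C.1 ∪ C.2)ᶜ).card / 2 ^ Fintype.card ι) := by
      apply mul_nonneg (hc C hC)
      positivity
    calc Real.sqrt (Real.exp 1) * t * (c C * (2 ^ ((C.1 ∪ C.2)ᶜ).card / 2 ^ Fintype.card ι) *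
          (∑ j ∈ C.1, sgn (e j) - ∑ j ∈ C.2, sgn (e j)))
        = c C * (2 ^ ((C.1 ∪ C.2)ᶜ).card / 2 ^ Fintype.card ι) *
          (Real.sqrt (Real.exp 1) * t * (∑ j ∈ C.1, sgn (e j) - ∑ j ∈ C.2, sgn (e j))) := by ring
      _ ≤ _ := mul_le_mul_of_nonneg_left hk hnn
  have hC := hB.trans hA
  have he : 0 < Real.sqrt (Real.exp 1) := Real.sqrt_pos.mpr (Real.exp_pos 1)
  have hpos : 0 < Real.sqrt (Real.exp 1) * t := mul_pos he ht0
  have hD : (∑ C ∈ T, c C * (2 ^ ((C.1 ∪ C.2)ᶜ).card / 2 ^ Fintype.card ι) *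
      (∑ j ∈ C.1, sgn (e j) - ∑ j ∈ C.2, sgn (e j))) ≤ 1 / (Real.sqrt (Real.exp 1) * t) := by
    rw [le_div_iff₀ hpos, mul_comm]
    exact hC
  have hE : 1 / (Real.sqrt (Real.exp 1) * t) = Real.sqrt (((d : ℝ) + 1) / Real.exp 1) := by
    rw [ht, Real.sqrt_div hd1.le]
    field_simp
  rw [hE] at hD
  linarith

theorem junta_abs_le (d : ℕ) (f : (ι → Bool) → ℝ) (hf : IsBoolean f)
    (T : Finset (Finset ι × Finset ι)) (c : Finset ι × Finset ι → ℝ)
    (hc : ∀ C ∈ T, 0 ≤ c C)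
    (hdisj : ∀ C ∈ T, Disjoint C.1 C.2)
    (hw : ∀ C ∈ T, C.1.card + C.2.card ≤ d)
    (hrep : ∀ x, (1 + f x) / 2 = ∑ C ∈ T, c C * subcube C.1 C.2 x) :
    ∑ j, |fourier f {j}| ≤ 2 * Real.sqrt (((d : ℝ) + 1) / Real.exp 1) := by
  have h := junta_signed_le d f hf T c hc hdisj hw hrep (fun j => decide (0 ≤ fourier f {j}))
  have h2 : ∀ j : ι, sgn (decide (0 ≤ fourier f {j})) * fourier f {j} = |fourier f {j}| := by
    intro j
    unfold sgn
    by_cases h0 : 0 ≤ fourier f {j}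
    · simp [h0, abs_of_nonneg h0]
    · simp [h0, abs_of_neg (not_le.mp h0)]
  simp_rw [h2] at h
  exact h

lemma fourier_neg (f : (ι → Bool) → ℝ) (S : Finset ι) :
    fourier (fun x => - f x) S = - fourier f S := by
  unfold fourier
  simp [Finset.sum_neg_distrib, neg_div]

lemma degree_neg (f : (ι → Bool) → ℝ) : degree (fun x => - f x) = degree f := by
  unfold degree
  simp [fourier_neg]

theorem junta_main (d : ℕ) (f : (ι → Bool) → ℝ) (hf : IsBoolean f)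
    (σ : ℝ) (hσ : σ = 1 ∨ σ = -1)
    (T : Finset (Finset ι × Finset ι)) (c : Finset ι × Finset ι → ℝ)
    (hc : ∀ C ∈ T, 0 ≤ c C)
    (hdisj : ∀ C ∈ T, Disjoint C.1 C.2)
    (hw : ∀ C ∈ T, C.1.card + C.2.card ≤ d)
    (hrep : ∀ x, (1 + σ * f x) / 2 = ∑ C ∈ T, c C * subcube C.1 C.2 x) :
    degree f ≤ d ∧ ∑ j, |fourier f {j}| ≤ 2 * Real.sqrt (((d : ℝ) + 1) / Real.exp 1) := by
  rcases hσ with rfl | rfl
  · simp only [one_mul] at hrep
    exact ⟨junta_degree d f T c hdisj hw hrep, junta_abs_le d f hf T c hc hdisj hw hrep⟩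
  · have hrep' : ∀ x, (1 + (fun x => - f x) x) / 2 = ∑ C ∈ T, c C * subcube C.1 C.2 x := by
      intro x
      rw [← hrep x]
      ring
    have hf' : IsBoolean (fun x => - f x) := by
      intro x
      rcases hf x with h | h
      · right; simp [h]
      · left; simp [h]
    have h1 := junta_degree d _ T c hdisj hw hrep'
    have h2 := junta_abs_le d _ hf' T c hc hdisj hw hrep'
    rw [degree_neg] at h1
    simp_rw [fourier_neg, abs_neg] at h2
    exact ⟨h1, h2⟩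

end Vale.Agent.P047
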